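import Vale.Agent.P281.H64.TS.Spec

/-!
# P281, project T-S (helper740), block A8: linearity of the Čech data
-/

open Set Filter Metric
open scoped Topology ContDiff

set_option linter.unusedSectionVars false

noncomputable section

namespace Vale.Agent.P281.H740.TS

open Vale.Agent.P281.H64.TK Vale.Agent.P281.H64.TK.TS
open Vale.Agent.P281.H64 (Cm)

variable {d : ℕ} {E Γ : Type} [TopologicalSpace E] [Group Γ] [MulAction Γ E]
  {S : Sheets d E Γ} {V : Set E}

/-! ### Derivatives -/

theorem fd_add {F : Type} [NormedAddCommGroup F] [NormedSpace ℝ F] {f g : Cm d → F} {z : Cm d}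
    (hf : DifferentiableAt ℝ f z) (hg : DifferentiableAt ℝ g z) :
    fderiv ℝ (fun u => f u + g u) z = fderiv ℝ f z + fderiv ℝ g z :=
  (hf.hasFDerivAt.add hg.hasFDerivAt).fderiv

theorem fd_smul {F : Type} [NormedAddCommGroup F] [NormedSpace ℝ F] [NormedSpace ℂ F]
    [SMulCommClass ℝ ℂ F] {f : Cm d → F} {z : Cm d}
    (hf : DifferentiableAt ℝ f z) (x : ℂ) :
    fderiv ℝ (fun u => x • f u) z = x • fderiv ℝ f z :=
  (hf.hasFDerivAt.const_smul x).fderiv

/-! ### Forms -/

theorem f2_zero : F2On S V (fun _ _ => (0 : L2 d)) where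
  smooth _ _ _ _ := contDiffAt_const
  alt _ _ _ _ u v := by simp
  change _ _ _ _ _ _ _ _ _ _ _ := rfl

theorem f2_add {α α' : Fin S.N → Cm d → L2 d} (h : F2On S V α) (h' : F2On S V α') :
    F2On S V (fun i z => α i z + α' i z) where
  smooth i z hz hv := (h.smooth i z hz hv).add (h'.smooth i z hz hv)
  alt i z hz hv u v := by
    show α i z u v + α' i z u v = -(α i z v u + α' i z v u)
    rw [h.alt i z hz hv, h'.alt i z hz hv]
    ring
  change i j z hz z' hz' hv ψ hψ u v := by
    show α i z u v + α' i z u v = α j z' (fderiv ℝ ψ z u) (fderiv ℝ ψ z v) +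
      α' j z' (fderiv ℝ ψ z u) (fderiv ℝ ψ z v)
    rw [h.change i j z hz z' hz' hv ψ hψ, h'.change i j z hz z' hz' hv ψ hψ]

theorem f2_smul {α : Fin S.N → Cm d → L2 d} (x : ℂ) (h : F2On S V α) :
    F2On S V (fun i z => x • α i z) where
  smooth i z hz hv := (h.smooth i z hz hv).const_smul x
  alt i z hz hv u v := by
    show x • α i z u v = -(x • α i z v u)
    rw [h.alt i z hz hv, smul_neg]
  change i j z hz z' hz' hv ψ hψ u v := by
    show x • α i z u v = x • α j z' (fderiv ℝ ψ z u) (fderiv ℝ ψ z v)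
    rw [h.change i j z hz z' hz' hv ψ hψ]

theorem cl2_zero : Cl2 S (fun _ _ => (0 : L2 d)) where
  toF2On := f2_zero
  closed i z hz u v w := by simp

theorem cl2_add {α α' : Fin S.N → Cm d → L2 d} (h : Cl2 S α) (h' : Cl2 S α') :
    Cl2 S (fun i z => α i z + α' i z) where
  toF2On := f2_add h.toF2On h'.toF2On
  closed i z hz u v w := by
    have e1 : DifferentiableAt ℝ (α i) z := (h.smooth i z hz (mem_univ _)).differentiableAt (by simp)
    have e2 : DifferentiableAt ℝ (α' i) z :=
      (h'.smooth i z hz (mem_univ _)).differentiableAt (by simp)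
    have e3 : fderiv ℝ (fun z => α i z + α' i z) z = fderiv ℝ (α i) z + fderiv ℝ (α' i) z :=
      fd_add (F := L2 d) e1 e2
    rw [e3]
    have h1 := h.closed i z hz u v w
    have h2 := h'.closed i z hz u v w
    show (fderiv ℝ (α i) z u v w + fderiv ℝ (α' i) z u v w) +
      (fderiv ℝ (α i) z v w u + fderiv ℝ (α' i) z v w u) +
      (fderiv ℝ (α i) z w u v + fderiv ℝ (α' i) z w u v) = 0
    linear_combination h1 + h2

theorem cl2_smul {α : Fin S.N → Cm d → L2 d} (x : ℂ) (h : Cl2 S α) :
    Cl2 S (fun i z => x • α i z) where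
  toF2On := f2_smul x h.toF2On
  closed i z hz u v w := by
    have e1 : DifferentiableAt ℝ (α i) z := (h.smooth i z hz (mem_univ _)).differentiableAt (by simp)
    have e3 : fderiv ℝ (fun z => x • α i z) z = x • fderiv ℝ (α i) z :=
      fd_smul (F := L2 d) e1 x
    rw [e3]
    have h1 := h.closed i z hz u v w
    show x * fderiv ℝ (α i) z u v w + x * fderiv ℝ (α i) z v w u + x * fderiv ℝ (α i) z w u v = 0
    linear_combination x * h1

/-! ### Čech data -/

variable {A : Type} {U : A → Set E}

theorem isCo_zero : IsCo S U (fun _ _ => (0 : L2 d)) (fun _ _ _ => 0) (fun _ _ _ => 0)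
    (fun _ _ _ => 0) where
  f1 a := ⟨fun _ _ _ _ => contDiffAt_const, fun _ _ _ _ _ _ _ _ _ _ => rfl⟩
  d1 a i z hz hv u v := by
    have h0 := (hasFDerivAt_const (𝕜 := ℝ) (0 : L1 d) z).fderiv
    show fderiv ℝ (fun _ : Cm d => (0 : L1 d)) z u v - fderiv ℝ (fun _ : Cm d => (0 : L1 d)) z v u = 0
    rw [h0]
    simp
  sm a b i z hz hv := contDiffAt_const
  d0 a b i z hz hv := by
    show fderiv ℝ (fun _ : Cm d => (0 : ℂ)) z = (0 : L1 d) - 0
    rw [sub_zero]
    exact (hasFDerivAt_const (𝕜 := ℝ) (0 : ℂ) z).fderiv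
  co a b b' e he := by simp
  zero a b b' h := rfl

theorem isCo_add {α α' : Fin S.N → Cm d → L2 d} {β β' : A → Fin S.N → Cm d → L1 d}
    {g g' : A → A → E → ℂ} {c c' : A → A → A → ℂ} (h : IsCo S U α β g c)
    (h' : IsCo S U α' β' g' c') :
    IsCo S U (fun i z => α i z + α' i z) (fun a i z => β a i z + β' a i z)
      (fun a b e => g a b e + g' a b e) (fun a b b' => c a b b' + c' a b b') where
  f1 a := by
    refine ⟨fun i z hz hv => ((h.f1 a).smooth i z hz hv).add ((h'.f1 a).smooth i z hz hv),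
      fun i j z hz z' hz' hv ψ hψ v => ?_⟩
    show β a i z v + β' a i z v = β a j z' (fderiv ℝ ψ z v) + β' a j z' (fderiv ℝ ψ z v)
    rw [(h.f1 a).change i j z hz z' hz' hv ψ hψ, (h'.f1 a).change i j z hz z' hz' hv ψ hψ]
  d1 a i z hz hv u v := by
    have e1 : DifferentiableAt ℝ (β a i) z := ((h.f1 a).smooth i z hz hv).differentiableAt (by simp)
    have e2 : DifferentiableAt ℝ (β' a i) z :=
      ((h'.f1 a).smooth i z hz hv).differentiableAt (by simp)
    rw [fd_add e1 e2]
    have h1 := h.d1 a i z hz hv u v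
    have h2 := h'.d1 a i z hz hv u v
    show (fderiv ℝ (β a i) z u v + fderiv ℝ (β' a i) z u v) -
      (fderiv ℝ (β a i) z v u + fderiv ℝ (β' a i) z v u) = α i z u v + α' i z u v
    linear_combination h1 + h2
  sm a b i z hz hv := (h.sm a b i z hz hv).add (h'.sm a b i z hz hv)
  d0 a b i z hz hv := by
    have e1 : DifferentiableAt ℝ (fun u => g a b (S.σ i u)) z :=
      (h.sm a b i z hz hv).differentiableAt (by simp)
    have e2 : DifferentiableAt ℝ (fun u => g' a b (S.σ i u)) z :=
      (h'.sm a b i z hz hv).differentiableAt (by simp)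
    show fderiv ℝ (fun u => g a b (S.σ i u) + g' a b (S.σ i u)) z =
      (β a i z + β' a i z) - (β b i z + β' b i z)
    rw [fd_add e1 e2, h.d0 a b i z hz hv, h'.d0 a b i z hz hv]
    exact (add_sub_add_comm _ _ _ _).symm
  co a b b' e he := by
    have h1 := h.co a b b' e he
    have h2 := h'.co a b b' e he
    show (g b b' e + g' b b' e) - (g a b' e + g' a b' e) + (g a b e + g' a b e) = _
    linear_combination h1 + h2
  zero a b b' hU := by
    show c a b b' + c' a b b' = 0
    rw [h.zero a b b' hU, h'.zero a b b' hU, add_zero]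

theorem isCo_smul {α : Fin S.N → Cm d → L2 d} {β : A → Fin S.N → Cm d → L1 d}
    {g : A → A → E → ℂ} {c : A → A → A → ℂ} (x : ℂ) (h : IsCo S U α β g c) :
    IsCo S U (fun i z => x • α i z) (fun a i z => x • β a i z)
      (fun a b e => x * g a b e) (fun a b b' => x * c a b b') where
  f1 a := by
    refine ⟨fun i z hz hv => ((h.f1 a).smooth i z hz hv).const_smul x,
      fun i j z hz z' hz' hv ψ hψ v => ?_⟩
    show x • β a i z v = x • β a j z' (fderiv ℝ ψ z v)
    rw [(h.f1 a).change i j z hz z' hz' hv ψ hψ]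
  d1 a i z hz hv u v := by
    have e1 : DifferentiableAt ℝ (β a i) z := ((h.f1 a).smooth i z hz hv).differentiableAt (by simp)
    rw [fd_smul e1 x]
    have h1 := h.d1 a i z hz hv u v
    show x * fderiv ℝ (β a i) z u v - x * fderiv ℝ (β a i) z v u = x * α i z u v
    linear_combination x * h1
  sm a b i z hz hv := by
    have h1 : ContDiffAt ℝ ∞ (fun u => x • g a b (S.σ i u)) z := (h.sm a b i z hz hv).const_smul x
    exact h1
  d0 a b i z hz hv := by
    have e1 : DifferentiableAt ℝ (fun u => g a b (S.σ i u)) z :=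
      (h.sm a b i z hz hv).differentiableAt (by simp)
    show fderiv ℝ (fun u => x • g a b (S.σ i u)) z = x • β a i z - x • β b i z
    rw [fd_smul e1 x, h.d0 a b i z hz hv, smul_sub]
  co a b b' e he := by
    have h1 := h.co a b b' e he
    show x * g b b' e - x * g a b' e + x * g a b e = _
    linear_combination x * h1
  zero a b b' hU := by
    show x * c a b b' = 0
    rw [h.zero a b b' hU, mul_zero]

/-- linear combinations -/
theorem exists_sum {ι : Type} (s : Finset ι) (x : ι → ℂ) {b : ι → Fin S.N → Cm d → L2 d}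
    {c : ι → A → A → A → ℂ} (hb : ∀ k, Cl2 S (b k)) (h : ∀ k, ∃ β g, IsCo S U (b k) β g (c k)) :
    Cl2 S (fun i z => ∑ k ∈ s, x k • b k i z) ∧
      ∃ β g, IsCo S U (fun i z => ∑ k ∈ s, x k • b k i z) β g
        (fun a e e' => ∑ k ∈ s, x k * c k a e e') := by
  classical
  induction s using Finset.induction_on with
  | empty =>
    refine ⟨by simpa using cl2_zero, fun _ _ _ => 0, fun _ _ _ => 0, ?_⟩
    simpa using isCo_zero (S := S) (U := U)
  | insert k s hk ih =>
    obtain ⟨h1, β, g, h2⟩ := ih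
    obtain ⟨β', g', h3⟩ := h k
    have h4 := cl2_add (cl2_smul (x k) (hb k)) h1
    have h5 := isCo_add (isCo_smul (x k) h3) h2
    have e1 : (fun i z => ∑ k ∈ insert k s, x k • b k i z) =
        fun i z => x k • b k i z + ∑ k ∈ s, x k • b k i z := by
      funext i z
      exact Finset.sum_insert hk
    have e2 : (fun a e e' => ∑ k ∈ insert k s, x k * c k a e e') =
        fun a e e' => x k * c k a e e' + ∑ k ∈ s, x k * c k a e e' := by
      funext a e e'
      exact Finset.sum_insert hk
    rw [e1, e2]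
    exact ⟨h4, _, _, h5⟩

end Vale.Agent.P281.H740.TS
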