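import Vale.Agent.P281.H740.TS.Lin

/-!
# P281, project T-S (helper740), block A8: the marking
-/

open Set Filter Metric
open scoped Topology ContDiff

set_option linter.unusedSectionVars false

noncomputable section

namespace Vale.Agent.P281.H740.TS

open Vale.Agent.P281.H64.TK Vale.Agent.P281.H64.TK.TS
open Vale.Agent.P281.H64 (Cm)

variable {d : ℕ} {E Γ : Type} [TopologicalSpace E] [T2Space E] [Group Γ] [Subsingleton Γ]
  [MulAction Γ E] [ContinuousConstSMul Γ E] {S : Sheets d E Γ} {A : Type} [Fintype A]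

theorem isCo_sub {U : A → Set E} {α α' : Fin S.N → Cm d → L2 d}
    {β β' : A → Fin S.N → Cm d → L1 d} {g g' : A → A → E → ℂ} {c c' : A → A → A → ℂ}
    (h : IsCo S U α β g c) (h' : IsCo S U α' β' g' c') :
    ∃ β'' g'', IsCo S U (fun i z => α i z - α' i z) β'' g''
      (fun a b b' => c a b b' - c' a b b') := by
  have h1 := isCo_add h (isCo_smul (-1) h')
  have e1 : (fun i z => α i z - α' i z) = fun i z => α i z + (-1 : ℂ) • α' i z := by
    funext i z
    refine ContinuousLinearMap.ext fun u => ContinuousLinearMap.ext fun v => ?_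
    show α i z u v - α' i z u v = α i z u v + (-1) * α' i z u v
    ring
  have e2 : (fun a b b' => c a b b' - c' a b b') = fun a b b' => c a b b' + (-1) * c' a b b' := by
    funext a b b'
    ring
  rw [e1, e2]
  exact ⟨_, _, h1⟩

theorem cl2_sub {α α' : Fin S.N → Cm d → L2 d} (h : Cl2 S α) (h' : Cl2 S α') :
    Cl2 S (fun i z => α i z - α' i z) := by
  have h1 := cl2_add h (cl2_smul (-1) h')
  have e1 : (fun i z => α i z - α' i z) = fun i z => α i z + (-1 : ℂ) • α' i z := by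
    funext i z
    refine ContinuousLinearMap.ext fun u => ContinuousLinearMap.ext fun v => ?_
    show α i z u v - α' i z u v = α i z u v + (-1) * α' i z u v
    ring
  rw [e1]
  exact h1

theorem exact_iff (coCob : CoCobStmt) (G : Good S A) (hd : 0 < d) {n : ℕ}
    {m : Fin n → A → A → A → ℂ} {b : Fin n → Fin S.N → Cm d → L2 d} (hb : ∀ k, Cl2 S (b k))
    (hco : ∀ k, ∃ β g, IsCo S G.U (b k) β g (m k)) {α : Fin S.N → Cm d → L2 d}
    {β : A → Fin S.N → Cm d → L1 d} {g : A → A → E → ℂ} {c : A → A → A → ℂ} (hα : Cl2 S α)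
    (h : IsCo S G.U α β g c) (x : Fin n → ℂ) :
    Exact S (fun i z => α i z - ∑ k, x k • b k i z) ↔
      IsCob (K3 G.U) (fun a e e' => c a e e' - ∑ k, x k * m k a e e') := by
  obtain ⟨h1, β', g', h2⟩ := exists_sum (S := S) Finset.univ x hb hco
  obtain ⟨β'', g'', h3⟩ := isCo_sub h h2
  exact (coCob d E Γ S A G _ _ _ _ hd (cl2_sub hα h1) h3).2

theorem isCob_sub {K3 : A → A → A → Prop} {c c' : A → A → A → ℂ} (h : IsCob K3 c)
    (h' : IsCob K3 c') : IsCob K3 (fun a b e => c a b e - c' a b e) := by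
  obtain ⟨t, ht⟩ := h
  obtain ⟨t', ht'⟩ := h'
  refine ⟨fun a b => t a b - t' a b, fun a b e hK => ?_⟩
  show c a b e - c' a b e = (t b e - t' b e) - (t a e - t' a e) + (t a b - t' a b)
  rw [ht a b e hK, ht' a b e hK]
  ring

/-- **A8** -/
theorem mark (good : GoodStmt) (coEx : CoExStmt) (coCob : CoCobStmt) (weil : WeilStmt)
    (lin : LinStmt) (intCob : IntCobStmt) : MarkStmt := by
  intro d E Γ _ _ _ _ _ _ S hd
  classical
  obtain ⟨A, iA, G, -⟩ := good d E Γ S hd 1 one_pos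
  obtain ⟨n, m, hm, hex, hint⟩ := lin A (K3 G.U) (K4 G.U) (by
    rintro a b e f ⟨x, ⟨⟨ha, hb⟩, he⟩, hf⟩
    exact ⟨⟨x, ⟨hb, he⟩, hf⟩, ⟨x, ⟨ha, he⟩, hf⟩, ⟨x, ⟨ha, hb⟩, hf⟩, ⟨x, ⟨ha, hb⟩, he⟩⟩)
  have hcoc : ∀ k, IsCoc (K3 G.U) (K4 G.U) (fun a b e => (m k a b e : ℂ)) := by
    intro k
    refine ⟨fun a b e h => ?_, fun a b e f h => ?_⟩
    · show ((m k a b e : ℤ) : ℂ) = 0
      rw [(hm k).1 a b e h, Int.cast_zero]
    · show (m k b e f : ℂ) - m k a e f + m k a b f - m k a b e = 0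
      have h1 := (hm k).2 a b e f h
      exact_mod_cast congrArg (Int.cast : ℤ → ℂ) h1
  choose b βb gb hb hco hre hI using fun k => weil d E Γ S A G _ hd (hcoc k)
  have hco' : ∀ k, ∃ β g, IsCo S G.U (b k) β g (fun a b e => (m k a b e : ℂ)) :=
    fun k => ⟨_, _, hco k⟩
  -- the coordinates
  have hcl : ∀ α, Cl2 S α → ∃ x : Fin n → ℂ, ∃ β g c, IsCo S G.U α β g c ∧
      IsCob (K3 G.U) (fun a e e' => c a e e' - ∑ k, x k * (m k a e e' : ℂ)) := by
    intro α hα
    obtain ⟨β, g, c, h⟩ := coEx d E Γ S A G α hd hα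
    obtain ⟨x, hx, -⟩ := hex c (coCob d E Γ S A G α β g c hd hα h).1
    exact ⟨x, β, g, c, h, hx⟩
  refine ⟨n, ⟨{
    b := b
    cl := fun α => if h : Cl2 S α then (hcl α h).choose else 0
    closed := hb
    real := fun k => hre k (fun a b e => by simp)
    int := fun k => hI k (fun a b e => ⟨_, rfl⟩)
    ex := ?_
    indep := ?_
    intcl := ?_ }⟩⟩
  · intro α hα
    simp only [dif_pos hα]
    obtain ⟨β, g, c, h, hx⟩ := (hcl α hα).choose_spec
    exact (exact_iff coCob G hd hb hco' hα h _).2 hx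
  · intro c hc
    obtain ⟨h1, β', g', h2⟩ := exists_sum (S := S) Finset.univ c hb hco'
    have h3 := (coCob d E Γ S A G _ _ _ _ hd h1 h2).2.1 hc
    have h0 : IsCoc (K3 G.U) (K4 G.U) (fun _ _ _ => (0 : ℂ)) :=
      ⟨fun _ _ _ _ => rfl, fun _ _ _ _ _ => by simp⟩
    obtain ⟨x, -, hx⟩ := hex _ h0
    have h4 : (0 : Fin n → ℂ) = x := hx 0 ⟨fun _ _ => 0, fun a b e _ => by simp⟩
    have h5 : (-c : Fin n → ℂ) = x := by
      apply hx
      obtain ⟨t, ht⟩ := h3
      refine ⟨t, fun a b e hK => ?_⟩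
      rw [← ht a b e hK]
      simp
    rw [← h4] at h5
    exact neg_eq_zero.1 h5
  · intro α hα hi k
    simp only [dif_pos hα]
    obtain ⟨β, g, c, h, hx⟩ := (hcl α hα).choose_spec
    obtain ⟨m', hm', hm2⟩ := intCob d E Γ S A G α β g c hd hα hi h
    refine hint m' hm' _ ?_ k
    have h5 := isCob_sub hx hm2
    obtain ⟨t, ht⟩ := h5
    refine ⟨t, fun a b e hK => ?_⟩
    rw [← ht a b e hK]
    ring

end Vale.Agent.P281.H740.TS
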